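import Mathlib
import Crest.Prelude.Def_TwoAdicShift

set_option autoImplicit false
open Filter Topology
open Crest.AnalysisR.TwoAdic MeasureTheory
attribute [local instance] Crest.AnalysisR.TwoAdic.borelTwoAdic Crest.AnalysisR.TwoAdic.borelSpace_twoAdic

namespace Crest.Agent.R113B

/-- A separable infinite-dimensional complex Hilbert space has a Hilbert basis indexed by `ℕ`. -/
theorem exists_natBasis (H : Type*) [NormedAddCommGroup H] [InnerProductSpace ℂ H] [CompleteSpace H]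
    [TopologicalSpace.SeparableSpace H] (hH : ¬ FiniteDimensional ℂ H) :
    Nonempty (HilbertBasis ℕ ℂ H) := by
  classical
  obtain ⟨w, b, hb⟩ := exists_hilbertBasis ℂ H
  have hon : Orthonormal ℂ b := b.orthonormal
  have hcount : Countable w := by
    have hsep : Pairwise (Function.onFun Disjoint (fun i : w => Metric.ball (b i) (1 / 2))) := by
      intro i j hij
      apply Metric.ball_disjoint_ball
      have h1 : ‖b i - b j‖ ^ 2 = 2 := by
        rw [@norm_sub_sq ℂ, hon.1 i, hon.1 j, hon.2 hij]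
        norm_num
      rw [dist_eq_norm]
      nlinarith [norm_nonneg (b i - b j)]
    exact hsep.countable_of_isOpen_disjoint (fun _ => Metric.isOpen_ball)
      (fun i => ⟨b i, Metric.mem_ball_self (by norm_num)⟩)
  have hinf : Infinite w := by
    by_contra hfin
    rw [not_infinite_iff_finite] at hfin
    apply hH
    have hfd : FiniteDimensional ℂ (Submodule.span ℂ (Set.range b)) :=
      FiniteDimensional.span_of_finite ℂ (Set.finite_range b)
    have hcl : IsClosed ((Submodule.span ℂ (Set.range b) : Submodule ℂ H) : Set H) :=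
      Submodule.closed_of_finiteDimensional _
    have htop : Submodule.span ℂ (Set.range b) = ⊤ := by
      have := b.dense_span
      rwa [hcl.submodule_topologicalClosure_eq] at this
    rw [htop] at hfd
    exact Module.Finite.equiv (Submodule.topEquiv (R := ℂ) (M := H))
  obtain ⟨e⟩ : Nonempty (ℕ ≃ w) := nonempty_equiv_of_countable
  refine ⟨HilbertBasis.mk (v := b ∘ e) (hon.comp e e.injective) ?_⟩
  rw [e.surjective.range_comp, b.dense_span]

instance instProbHaar : IsProbabilityMeasure haarTwoAdic := by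
  constructor
  have := Measure.addHaarMeasure_self (G := ℤ_[2]) (K₀ := ⊤)
  simpa [haarTwoAdic] using this

instance instSepSeq : TopologicalSpace.SeparableSpace seqHilbert := by
  let b : HilbertBasis ℤ ℂ seqHilbert := default
  have h1 : TopologicalSpace.IsSeparable (Set.range b) := (Set.countable_range b).isSeparable
  have h2 := (h1.span (R := ℂ)).closure
  have h3 : closure ((Submodule.span ℂ (Set.range b) : Submodule ℂ seqHilbert) : Set seqHilbert) = Set.univ := by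
    rw [← Submodule.topologicalClosure_coe, b.dense_span, Submodule.top_coe]
  rw [h3] at h2
  exact TopologicalSpace.isSeparable_univ_iff.1 h2

instance instSepFibre : TopologicalSpace.SeparableSpace fibreSpace := by
  have : Fact ((2 : ENNReal) ≠ ⊤) := ⟨by norm_num⟩
  infer_instance

theorem fibre_infdim : ¬ FiniteDimensional ℂ fibreSpace := by
  intro h
  let b : HilbertBasis ℤ ℂ seqHilbert := default
  have hinj : Function.Injective (Lp.constₗ (E := seqHilbert) 2 haarTwoAdic ℂ) := by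
    rw [injective_iff_map_eq_zero]
    intro c hc
    have h1 : ‖Lp.const 2 haarTwoAdic c‖ = ‖c‖ := by
      rw [Lp.norm_const _ _ _ (by norm_num)]
      simp
    have h2 : Lp.const 2 haarTwoAdic c = 0 := hc
    rw [h2, norm_zero] at h1
    exact norm_eq_zero.1 h1.symm
  have hfd : FiniteDimensional ℂ seqHilbert := Module.Finite.of_injective _ hinj
  have := b.orthonormal.linearIndependent.finite
  exact not_finite ℤ

/-- the multiplier by a bounded measurable function -/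
theorem exists_mul (g : ℤ_[2] → ℂ) (hg : Measurable g) (C : ℝ) (hC : ∀ x, ‖g x‖ ≤ C) :
    ∃ M : fibreSpace →L[ℂ] fibreSpace, ∀ f : fibreSpace,
      ∀ᵐ x ∂haarTwoAdic, (M f : ℤ_[2] → seqHilbert) x = g x • (f : ℤ_[2] → seqHilbert) x := by
  have hm : MemLp g ⊤ haarTwoAdic :=
    memLp_top_of_bound hg.aestronglyMeasurable C (Eventually.of_forall hC)
  refine ⟨(ContinuousLinearMap.lsmul ℂ ℂ (E := seqHilbert)).holderL haarTwoAdic ⊤ 2 2 (hm.toLp g), ?_⟩
  intro f
  have h1 := (ContinuousLinearMap.lsmul ℂ ℂ (E := seqHilbert)).coeFn_holder (r := 2) (hm.toLp g) f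
  filter_upwards [h1, hm.coeFn_toLp] with x hx hx2
  rw [ContinuousLinearMap.holderL_apply_apply, hx, hx2]
  simp

theorem tendsto_root {A : Type*} [NormedRing A] (S : A)
    (h : ∀ n : ℕ, 1 ≤ n → ‖S ^ n‖ ≤ Real.exp (-10 * (((n + 1) ^ 2 / 4 : ℕ) : ℝ))) :
    Tendsto (fun n : ℕ => ‖S ^ n‖ ^ (1 / (n : ℝ))) atTop (𝓝 0) := by
  have hlim : Tendsto (fun n : ℕ => Real.exp (-(n : ℝ))) atTop (𝓝 0) :=
    Real.tendsto_exp_neg_atTop_nhds_zero.comp tendsto_natCast_atTop_atTop
  refine squeeze_zero' (Eventually.of_forall fun n => Real.rpow_nonneg (norm_nonneg _) _) ?_ hlim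
  filter_upwards [eventually_ge_atTop 1] with n hn
  have hn0 : (0 : ℝ) < n := by exact_mod_cast hn
  have h1 : (n : ℝ) * n ≤ 10 * (((n + 1) ^ 2 / 4 : ℕ) : ℝ) := by
    have : n * n ≤ 10 * ((n + 1) ^ 2 / 4) := by
      have h2 : (n + 1) ^ 2 = n * n + 2 * n + 1 := by ring
      rw [h2]
      generalize n * n = m
      omega
    exact_mod_cast this
  calc ‖S ^ n‖ ^ (1 / (n : ℝ)) ≤ (Real.exp (-((n : ℝ) * n))) ^ (1 / (n : ℝ)) := by
        apply Real.rpow_le_rpow (norm_nonneg _) _ (by positivity)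
        exact (h n hn).trans (Real.exp_le_exp.2 (by linarith))
    _ = Real.exp (-(n : ℝ)) := by
        rw [← Real.exp_mul]
        congr 1
        field_simp

/-- The part of S0150 that is used. -/
theorem s0148_core (Sfib : ℤ_[2] → (seqHilbert →L[ℂ] seqHilbert))
    (S V : fibreSpace →L[ℂ] fibreSpace)
    (hS : ∀ f : fibreSpace, ∀ᵐ x ∂haarTwoAdic,
      (S f : ℤ_[2] → seqHilbert) x = Sfib x ((f : ℤ_[2] → seqHilbert) x))
    (hS0 : S ≠ 0)
    (hn : ∀ n : ℕ, 1 ≤ n → ‖S ^ n‖ ≤ Real.exp (-10 * (((n + 1) ^ 2 / 4 : ℕ) : ℝ)))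
    (hVS : V * S = S * V)
    (htr : ∀ W : Submodule ℂ fibreSpace, IsClosed (W : Set fibreSpace) →
        (∀ f ∈ W, S f ∈ W) → (∀ f ∈ W, V f ∈ W) →
        (∀ g : ℤ_[2] → ℂ, Measurable g → (∃ C : ℝ, ∀ x, ‖g x‖ ≤ C) →
          ∀ f ∈ W, ∀ f' : fibreSpace,
            (∀ᵐ x ∂haarTwoAdic, (f' : ℤ_[2] → seqHilbert) x = g x • (f : ℤ_[2] → seqHilbert) x) → f' ∈ W) →
        W = ⊥ ∨ W = ⊤)
    (H : Type*) [NormedAddCommGroup H] [InnerProductSpace ℂ H] [CompleteSpace H]
    [TopologicalSpace.SeparableSpace H] (hH : ¬ FiniteDimensional ℂ H) :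
    ∃ T : H →L[ℂ] H, T ≠ 0 ∧
      Tendsto (fun n : ℕ => ‖T ^ n‖ ^ (1 / (n : ℝ))) atTop (𝓝 0) ∧
      ∀ V : Submodule ℂ H, IsClosed (V : Set H) →
        (∀ A : H →L[ℂ] H, A * T = T * A → ∀ v ∈ V, A v ∈ V) → V = ⊥ ∨ V = ⊤ := by
  obtain ⟨b1⟩ := exists_natBasis H hH
  obtain ⟨b2⟩ := exists_natBasis fibreSpace fibre_infdim
  let U : H ≃ₗᵢ[ℂ] fibreSpace := b1.repr.trans b2.repr.symm
  let c : (fibreSpace →L[ℂ] fibreSpace) → (H →L[ℂ] H) := fun A =>
    (U.symm.toContinuousLinearEquiv : fibreSpace →L[ℂ] H) ∘L A ∘L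
      (U.toContinuousLinearEquiv : H →L[ℂ] fibreSpace)
  have hc : ∀ A v, c A v = U.symm (A (U v)) := fun A v => rfl
  have hmul : ∀ A B, c (A * B) = c A * c B := by
    intro A B; ext v
    simp [hc]
  have hpow : ∀ n : ℕ, c (S ^ n) = c S ^ n := by
    intro n
    induction n with
    | zero => ext v; simp [hc]
    | succ n ih => rw [pow_succ, pow_succ, hmul, ih]
  have hnorm : ∀ A, ‖c A‖ ≤ ‖A‖ := by
    intro A
    refine ContinuousLinearMap.opNorm_le_bound _ (norm_nonneg _) fun v => ?_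
    rw [hc, U.symm.norm_map]
    simpa using A.le_opNorm (U v)
  refine ⟨c S, ?_, ?_, ?_⟩
  · intro h0
    apply hS0
    ext1 f
    have := congrArg (fun T : H →L[ℂ] H => U (T (U.symm f))) h0
    simpa [hc] using this
  · apply tendsto_root
    intro n hn1
    rw [← hpow]
    exact (hnorm _).trans (hn n hn1)
  · intro W hW hinv
    let W' : Submodule ℂ fibreSpace := W.comap (U.symm.toLinearEquiv : fibreSpace →ₗ[ℂ] H)
    have hmem : ∀ f, f ∈ W' ↔ U.symm f ∈ W := fun f => Iff.rfl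
    have hW' : IsClosed (W' : Set fibreSpace) := hW.preimage U.symm.continuous
    have key : ∀ A : fibreSpace →L[ℂ] fibreSpace, A * S = S * A → ∀ f ∈ W', A f ∈ W' := by
      intro A hA f hf
      have h1 := hinv (c A) (by rw [← hmul, ← hmul, hA]) _ ((hmem f).1 hf)
      rw [hmem]
      simpa [hc] using h1
    have := htr W' hW' (key S rfl) (key V hVS) (by
      rintro g hg ⟨C, hC⟩ f hf f' hf'
      obtain ⟨M, hM⟩ := exists_mul g hg C hC
      have hcomm : M * S = S * M := by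
        ext1 f
        apply Lp.ext
        filter_upwards [hM (S f), hS f, hS (M f), hM f] with x h1 h2 h3 h4
        change (M (S f) : ℤ_[2] → seqHilbert) x = (S (M f) : ℤ_[2] → seqHilbert) x
        rw [h1, h2, h3, h4, map_smul]
      have : f' = M f := by
        apply Lp.ext
        filter_upwards [hf', hM f] with x h1 h2
        rw [h1, h2]
      rw [this]
      exact key M hcomm f hf)
    rcases this with h | h
    · left
      rw [eq_bot_iff]
      intro v hv
      have h1 : U v ∈ W' := by rw [hmem]; simpa using hv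
      rw [h, Submodule.mem_bot] at h1
      simpa using h1
    · right
      rw [eq_top_iff]
      intro v _
      have h1 : U v ∈ W' := by rw [h]; trivial
      rw [hmem] at h1
      simpa using h1

/-- S0148 from the statement of S0150. -/
theorem s0148_of
    (h : ∃ (β b : ℤ → ℤ_[2] → ℝ) (Sfib Vfib : ℤ_[2] → (seqHilbert →L[ℂ] seqHilbert))
      (S V : fibreSpace →L[ℂ] fibreSpace),
      (∀ j, Measurable (β j)) ∧ (∀ j x, 0 < β j x) ∧
      (∀ x j, Sfib x (basisVec j) = (β j x : ℂ) • basisVec (j + 1)) ∧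
      (∀ f : fibreSpace, ∀ᵐ x ∂haarTwoAdic, (S f : ℤ_[2] → seqHilbert) x = Sfib x ((f : ℤ_[2] → seqHilbert) x)) ∧
      (∀ x, ∀ W : Submodule ℂ seqHilbert, IsClosed (W : Set seqHilbert) →
        ((∀ v ∈ W, Sfib x v ∈ W) ↔ (W = ⊥ ∨ W = ⊤ ∨ ∃ h : ℤ, W = tailSpace h))) ∧
      S ≠ 0 ∧ ‖S‖ = Real.exp (-10) ∧
      (∀ n : ℕ, 1 ≤ n → ‖S ^ n‖ ≤ Real.exp (-10 * (((n + 1) ^ 2 / 4 : ℕ) : ℝ))) ∧
      ‖V‖ ≤ 1 ∧ V * S = S * V ∧
      (∀ j, Measurable (b j)) ∧ (∀ j x, 0 ≤ b j x ∧ b j x ≤ 1) ∧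
      (∀ x j, Vfib x (basisVec j) = (b j x : ℂ) • basisVec (j - 1)) ∧
      (∀ f : fibreSpace, ∀ᵐ x ∂haarTwoAdic,
        (V f : ℤ_[2] → seqHilbert) (x + 1) = Vfib x ((f : ℤ_[2] → seqHilbert) x)) ∧
      (∃ N : Set ℤ_[2], haarTwoAdic N = 0 ∧ ∀ x, x ∉ N →
        (∀ j, 0 < b j x) ∧
        (∀ h : ℤ, closure (Vfib x '' (tailSpace h : Set seqHilbert)) = (tailSpace (h - 1) : Set seqHilbert)) ∧
        closure (Set.range (Vfib x)) = Set.univ) ∧
      (∀ W : Submodule ℂ fibreSpace, IsClosed (W : Set fibreSpace) →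
        (∀ f ∈ W, S f ∈ W) → (∀ f ∈ W, V f ∈ W) →
        (∀ g : ℤ_[2] → ℂ, Measurable g → (∃ C : ℝ, ∀ x, ‖g x‖ ≤ C) →
          ∀ f ∈ W, ∀ f' : fibreSpace,
            (∀ᵐ x ∂haarTwoAdic, (f' : ℤ_[2] → seqHilbert) x = g x • (f : ℤ_[2] → seqHilbert) x) → f' ∈ W) →
        W = ⊥ ∨ W = ⊤))
    (H : Type*) [NormedAddCommGroup H] [InnerProductSpace ℂ H] [CompleteSpace H]
    [TopologicalSpace.SeparableSpace H] (hH : ¬ FiniteDimensional ℂ H) :
    ∃ T : H →L[ℂ] H, T ≠ 0 ∧
      Tendsto (fun n : ℕ => ‖T ^ n‖ ^ (1 / (n : ℝ))) atTop (𝓝 0) ∧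
      ∀ V : Submodule ℂ H, IsClosed (V : Set H) →
        (∀ A : H →L[ℂ] H, A * T = T * A → ∀ v ∈ V, A v ∈ V) → V = ⊥ ∨ V = ⊤ := by
  obtain ⟨β, b, Sfib, Vfib, S, V, -, -, -, hS, -, hS0, -, hn, -, hVS, -, -, -, -, -, htr⟩ := h
  exact s0148_core Sfib S V hS hS0 hn hVS htr H hH

end Crest.Agent.R113B
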